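import Mathlib

/-!
P217, module M3: Hahn series with rational exponents over an algebraically closed field are
algebraically closed.

For a monic `P` and a point `x` with `P x ≠ 0` the slope `δ` is the largest
`(v (c 0) - v (c i)) / i` over the Taylor coefficients `c` at `x`. Newton's step raises `v (P x)` by
changing `x` at exponents `≥ δ`, slopes increase along such steps, and chains have limits by
spherical completeness, so Zorn's lemma gives a root.
-/

open Polynomial HahnSeries

noncomputable section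

namespace Vale.Agent.P217.AlgClosed

variable {k : Type*} [Field k]

/-- The valuation. -/
abbrev v {k : Type*} [Field k] : AddValuation (HahnSeries ℚ k) (WithTop ℚ) :=
  HahnSeries.addVal ℚ k

/-- The slope data of `P` at `x`. -/
def IsSlope (P : Polynomial (HahnSeries ℚ k)) (x : HahnSeries ℚ k) (δ : ℚ) : Prop :=
  (∀ i, 1 ≤ i → v (P.eval x) ≤ v ((taylor x P).coeff i) + ((i • δ : ℚ) : WithTop ℚ)) ∧
    ∃ i, 1 ≤ i ∧ i ≤ P.natDegree ∧ (taylor x P).coeff i ≠ 0 ∧
      v ((taylor x P).coeff i) + ((i • δ : ℚ) : WithTop ℚ) = v (P.eval x) ∧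
      ∀ j, i < j → v (P.eval x) < v ((taylor x P).coeff j) + ((j • δ : ℚ) : WithTop ℚ)

theorem exists_isSlope {P : Polynomial (HahnSeries ℚ k)} (hd : P.natDegree ≠ 0)
    {x : HahnSeries ℚ k} (hx : P.eval x ≠ 0) : ∃ δ, IsSlope P x δ := by
  classical
  set T := taylor x P
  set s := (Finset.Icc 1 P.natDegree).filter fun i => T.coeff i ≠ 0
  have htop : T.coeff P.natDegree ≠ 0 := by
    rw [show P.natDegree = T.natDegree from (natDegree_taylor P x).symm]
    refine leadingCoeff_ne_zero.mpr fun h => hd ?_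
    rw [← natDegree_taylor P x]
    exact (congrArg natDegree h).trans natDegree_zero
  have hs : s.Nonempty := ⟨P.natDegree, by
    simp only [s, Finset.mem_filter, Finset.mem_Icc]
    exact ⟨⟨Nat.one_le_iff_ne_zero.mpr hd, le_rfl⟩, htop⟩⟩
  set g : ℕ → ℚ := fun i => ((P.eval x).order - (T.coeff i).order) / i
  set δ := s.sup' hs g with hδ
  set s' := s.filter fun i => g i = δ
  have hs' : s'.Nonempty := by
    obtain ⟨i, hi, he⟩ := s.exists_mem_eq_sup' hs g
    exact ⟨i, Finset.mem_filter.mpr ⟨hi, he.symm⟩⟩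
  have key : ∀ i, 1 ≤ i → T.coeff i ≠ 0 → i ∈ s ∧
      (P.eval x).order ≤ (T.coeff i).order + i • δ ∧
      (g i = δ → (P.eval x).order = (T.coeff i).order + i • δ) ∧
      (g i ≠ δ → (P.eval x).order < (T.coeff i).order + i • δ) := by
    intro i hi hc
    have his : i ∈ s := by
      simp only [s, Finset.mem_filter, Finset.mem_Icc]
      exact ⟨⟨hi, (natDegree_taylor P x) ▸ le_natDegree_of_ne_zero hc⟩, hc⟩
    have hpos : (0:ℚ) < i := by exact_mod_cast hi
    have hle : g i ≤ δ := Finset.le_sup' g his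
    rw [nsmul_eq_mul]
    refine ⟨his, ?_, fun he => ?_, fun he => ?_⟩
    · have h := (div_le_iff₀ hpos).mp hle
      linarith
    · have h := (div_eq_iff hpos.ne').mp he
      linarith
    · have h := (div_lt_iff₀ hpos).mp (lt_of_le_of_ne hle he)
      linarith
  refine ⟨δ, fun i hi => ?_, s'.max' hs', ?_⟩
  · by_cases hc : T.coeff i = 0
    · simp [T, hc, AddValuation.map_zero]
    · rw [addVal_apply_of_ne hx, addVal_apply_of_ne hc, ← WithTop.coe_add, WithTop.coe_le_coe]
      exact (key i hi hc).2.1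
  obtain ⟨hm, hme⟩ := Finset.mem_filter.mp (s'.max'_mem hs')
  obtain ⟨hI, hc⟩ := Finset.mem_filter.mp hm
  rw [Finset.mem_Icc] at hI
  refine ⟨hI.1, hI.2, hc, ?_, fun j hj => ?_⟩
  · rw [addVal_apply_of_ne hx, addVal_apply_of_ne hc, ← WithTop.coe_add, WithTop.coe_inj]
    exact ((key _ hI.1 hc).2.2.1 hme).symm
  · rw [addVal_apply_of_ne hx]
    by_cases hcj : T.coeff j = 0
    · simp [T, hcj, AddValuation.map_zero]
    · rw [addVal_apply_of_ne hcj, ← WithTop.coe_add, WithTop.coe_lt_coe]
      obtain ⟨hjs, -, -, hlt⟩ := key j (by omega) hcj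
      exact hlt fun he => absurd (s'.le_max' j (Finset.mem_filter.mpr ⟨hjs, he⟩)) (not_le.mpr hj)

open Classical in
/-- The chosen slope at `x`. -/
def slope (P : Polynomial (HahnSeries ℚ k)) (x : HahnSeries ℚ k) : ℚ :=
  if h : ∃ δ, IsSlope P x δ then h.choose else 0

theorem isSlope_slope {P : Polynomial (HahnSeries ℚ k)} (hd : P.natDegree ≠ 0)
    {x : HahnSeries ℚ k} (hx : P.eval x ≠ 0) : IsSlope P x (slope P x) := by
  rw [slope, dif_pos (exists_isSlope hd hx)]
  exact (exists_isSlope hd hx).choose_spec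

theorem le_v_pow {z : HahnSeries ℚ k} {δ : ℚ} (hz : (δ : WithTop ℚ) ≤ v z) (i : ℕ) :
    ((i • δ : ℚ) : WithTop ℚ) ≤ v (z ^ i) := by
  rw [AddValuation.map_pow, WithTop.coe_nsmul]
  exact nsmul_le_nsmul_right hz i

theorem eval_shift (P : Polynomial (HahnSeries ℚ k)) (x z : HahnSeries ℚ k) :
    P.eval (z + x) =
      ∑ i ∈ Finset.range (P.natDegree + 1), (taylor x P).coeff i * z ^ i := by
  rw [← taylor_eval, eval_eq_sum_range, natDegree_taylor]

/-- Changes at exponents `≥ δ` do not lower the value. -/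
theorem le_v_eval {P : Polynomial (HahnSeries ℚ k)} {x z : HahnSeries ℚ k} {δ : ℚ}
    (hs : IsSlope P x δ) (hz : (δ : WithTop ℚ) ≤ v z) : v (P.eval x) ≤ v (P.eval (z + x)) := by
  rw [eval_shift]
  refine AddValuation.map_le_sum _ fun i _ => ?_
  rcases Nat.eq_zero_or_pos i with rfl | hi
  · simp [taylor_coeff_zero]
  · rw [AddValuation.map_mul]
    exact (hs.1 i hi).trans (add_le_add le_rfl (le_v_pow hz i))

theorem v_natCast_mul (n : ℕ) (c : HahnSeries ℚ k) : v c ≤ v ((n : HahnSeries ℚ k) * c) := by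
  induction n with
  | zero => simp [AddValuation.map_zero]
  | succ n ih =>
    rw [Nat.cast_succ, add_mul, one_mul]
    exact AddValuation.map_le_add _ ih le_rfl

/-- Slopes increase along improving steps. -/
theorem slope_lt {P : Polynomial (HahnSeries ℚ k)} {x y : HahnSeries ℚ k} {δ δ' : ℚ}
    (hs : IsSlope P x δ) (hs' : IsSlope P y δ') (hz : (δ : WithTop ℚ) ≤ v (y - x))
    (hlt : v (P.eval x) < v (P.eval y)) : δ < δ' := by
  obtain ⟨-, i, hi, hid, hc, heq, hgt⟩ := hs
  set z := y - x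
  set T := taylor x P
  have hT : taylor y P = taylor z T := by rw [taylor_taylor, sub_add_cancel]
  have hci : v ((taylor y P).coeff i) = v (T.coeff i) := by
    rw [hT, taylor_coeff]
    have hdeg : (hasseDeriv i T).natDegree < P.natDegree + 1 := by
      refine Nat.lt_succ_of_le ((natDegree_hasseDeriv_le T i).trans ?_)
      rw [natDegree_taylor]
      omega
    rw [eval_eq_sum_range' hdeg, Finset.sum_range_succ']
    simp only [hasseDeriv_coeff, zero_add, Nat.choose_self, Nat.cast_one, one_mul, pow_zero,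
      mul_one]
    refine AddValuation.map_add_eq_of_lt_right _ (AddValuation.map_lt_sum _ (by simp [hc]) ?_)
    intro j _
    have h1 := hgt (j + 1 + i) (by omega)
    rw [← heq] at h1
    have h2 : v (T.coeff i) <
        v (T.coeff (j + 1 + i)) + (((j + 1) • δ : ℚ) : WithTop ℚ) := by
      rw [add_nsmul (a := δ) (j + 1) i, WithTop.coe_add, ← add_assoc] at h1
      exact lt_of_add_lt_add_right h1
    refine h2.trans_le ?_
    rw [AddValuation.map_mul]
    exact add_le_add (v_natCast_mul _ _) (le_v_pow hz _)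
  by_contra hle
  rw [not_lt] at hle
  have h1 := hs'.1 i hi
  rw [hci] at h1
  have h2 : v (P.eval y) ≤ v (T.coeff i) + ((i • δ : ℚ) : WithTop ℚ) :=
    h1.trans (add_le_add le_rfl (WithTop.coe_le_coe.mpr (nsmul_le_nsmul_right hle i)))
  rw [heq] at h2
  exact absurd hlt (not_lt.mpr h2)

/-- Newton's step. -/
theorem exists_step [IsAlgClosed k] {P : Polynomial (HahnSeries ℚ k)} {x : HahnSeries ℚ k}
    {δ : ℚ} (hx : P.eval x ≠ 0) (hs : IsSlope P x δ) :
    ∃ z, (δ : WithTop ℚ) ≤ v z ∧ v (P.eval x) < v (P.eval (z + x)) := by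
  set T := taylor x P
  set e := (P.eval x).order
  obtain ⟨i, hi, hid, hc, heq, -⟩ := hs.2
  set Q : Polynomial k := ∑ j ∈ Finset.range (P.natDegree + 1),
    C ((T.coeff j).coeff (e - j • δ)) * X ^ j with hQ
  have hQi : Q.coeff i ≠ 0 := by
    rw [hQ, finsetSum_coeff, Finset.sum_eq_single i (fun j _ hj => by simp [Ne.symm hj])
      (fun h => absurd (Finset.mem_range.mpr (Nat.lt_succ_of_le hid)) h)]
    rw [addVal_apply_of_ne hc, addVal_apply_of_ne hx, ← WithTop.coe_add, WithTop.coe_inj] at heq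
    simp only [coeff_C_mul_X_pow, if_true]
    rw [show e - i • δ = (T.coeff i).order by linarith]
    exact fun h => hc (coeff_order_eq_zero.mp h)
  have hQd : Q.degree ≠ 0 := fun h => by
    have := le_degree_of_ne_zero hQi
    rw [h] at this
    have : i ≤ 0 := by exact_mod_cast this
    omega
  obtain ⟨a, ha⟩ := IsAlgClosed.exists_root Q hQd
  refine ⟨HahnSeries.single δ a, by rw [addVal_apply]; exact orderTop_single_le, ?_⟩
  have hle : v (P.eval x) ≤ v (P.eval (HahnSeries.single δ a + x)) :=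
    le_v_eval hs (by rw [addVal_apply]; exact orderTop_single_le)
  refine lt_of_le_of_ne hle fun h => ?_
  rw [addVal_apply_of_ne hx, addVal_apply] at h
  refine coeff_orderTop_ne h.symm ?_
  rw [eval_shift, HahnSeries.coeff_sum]
  rw [IsRoot, hQ, eval_finsetSum] at ha
  rw [← ha]
  refine Finset.sum_congr rfl fun j _ => ?_
  rw [HahnSeries.single_pow, HahnSeries.coeff_mul_single]
  simp [T, e]

/-- The improvement relation. -/
def Improves (P : Polynomial (HahnSeries ℚ k)) (x y : HahnSeries ℚ k) : Prop :=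
  x = y ∨ (P.eval x ≠ 0 ∧ ((slope P x : ℚ) : WithTop ℚ) ≤ v (y - x) ∧
    v (P.eval x) < v (P.eval y))

theorem improves_trans {P : Polynomial (HahnSeries ℚ k)} (hd : P.natDegree ≠ 0)
    {a b c : HahnSeries ℚ k} (hab : Improves P a b) (hbc : Improves P b c) : Improves P a c := by
  rcases hab with rfl | ⟨ha, hab, hlab⟩
  · exact hbc
  rcases hbc with rfl | ⟨hb, hbc, hlbc⟩
  · exact Or.inr ⟨ha, hab, hlab⟩
  refine Or.inr ⟨ha, ?_, hlab.trans hlbc⟩
  have hs := slope_lt (isSlope_slope hd ha) (isSlope_slope hd hb) hab hlab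
  rw [show c - a = (c - b) + (b - a) by ring]
  exact AddValuation.map_le_add _ ((WithTop.coe_le_coe.mpr hs.le).trans hbc) hab

theorem coeff_eq_of_le {x y : HahnSeries ℚ k} {δ q : ℚ} (h : (δ : WithTop ℚ) ≤ v (y - x))
    (hq : q < δ) : x.coeff q = y.coeff q := by
  have : (y - x).coeff q = 0 :=
    coeff_eq_zero_of_lt_orderTop ((WithTop.coe_lt_coe.mpr hq).trans_le (addVal_apply (x := y - x) ▸ h))
  rw [HahnSeries.coeff_sub, sub_eq_zero] at this
  exact this.symm

/-- Chains have upper bounds. -/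
theorem exists_upper {P : Polynomial (HahnSeries ℚ k)} (hd : P.natDegree ≠ 0)
    (c : Set (HahnSeries ℚ k)) (hc : IsChain (Improves P) c) :
    ∃ y, ∀ x ∈ c, Improves P x y := by
  classical
  by_cases hmax : ∃ m ∈ c, ∀ x ∈ c, Improves P x m
  · obtain ⟨m, -, hm⟩ := hmax
    exact ⟨m, hm⟩
  push Not at hmax
  have hnext : ∀ x ∈ c, ∃ x' ∈ c, P.eval x ≠ 0 ∧
      ((slope P x : ℚ) : WithTop ℚ) ≤ v (x' - x) ∧ v (P.eval x) < v (P.eval x') := by
    intro x hx
    obtain ⟨x', hx', hn⟩ := hmax x hx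
    have hne : x' ≠ x := fun h => hn (Or.inl h)
    rcases hc hx' hx hne with h | h
    · exact absurd h hn
    · rcases h with rfl | h
      · exact absurd rfl hne
      · exact ⟨x', hx', h⟩
  have hagree : ∀ x ∈ c, ∀ x' ∈ c, ∀ q, q < slope P x → q < slope P x' →
      x.coeff q = x'.coeff q := by
    intro x hx x' hx' q hq hq'
    by_cases he : x = x'
    · rw [he]
    rcases hc hx hx' he with (h | ⟨-, h, -⟩) | (h | ⟨-, h, -⟩)
    · rw [h]
    · exact coeff_eq_of_le h hq
    · rw [h]
    · exact (coeff_eq_of_le h hq').symm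
  set f : ℚ → k := fun q =>
    if h : ∃ x ∈ c, q < slope P x then h.choose.coeff q else 0 with hf
  have hfx : ∀ x ∈ c, ∀ q, q < slope P x → f q = x.coeff q := by
    intro x hx q hq
    have h : ∃ x ∈ c, q < slope P x := ⟨x, hx, hq⟩
    rw [hf]
    simp only [dif_pos h]
    exact hagree _ h.choose_spec.1 x hx q h.choose_spec.2 hq
  have hpwo : (Function.support f).IsPWO := by
    refine Set.IsWF.isPWO (Set.isWF_iff_no_descending_seq.mpr fun g hg hsub => ?_)
    have h0 : ∃ x ∈ c, g 0 < slope P x := by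
      by_contra h
      refine hsub 0 ?_
      rw [hf]
      simp only [dif_neg h]
    obtain ⟨x, hx, hgx⟩ := h0
    refine (Set.isWF_iff_no_descending_seq.mp x.isPWO_support.isWF) g hg fun i => ?_
    have hlt : g i < slope P x := (hg.antitone (Nat.zero_le i)).trans_lt hgx
    rw [HahnSeries.mem_support, ← hfx x hx _ hlt]
    exact hsub i
  set y : HahnSeries ℚ k := ⟨f, hpwo⟩
  have hy : ∀ x ∈ c, ((slope P x : ℚ) : WithTop ℚ) ≤ v (y - x) := by
    intro x hx
    rw [addVal_apply, le_orderTop_iff_forall]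
    intro q hq
    rw [HahnSeries.coeff_sub, sub_eq_zero]
    exact hfx x hx q (WithTop.coe_lt_coe.mp hq)
  refine ⟨y, fun x hx => Or.inr ?_⟩
  obtain ⟨x', hx', hx0, -, hlt⟩ := hnext x hx
  refine ⟨hx0, hy x hx, hlt.trans_le ?_⟩
  obtain ⟨x'', -, hx'0, -, -⟩ := hnext x' hx'
  have h := le_v_eval (isSlope_slope hd hx'0) (hy x' hx')
  rwa [sub_add_cancel] at h

theorem exists_root [IsAlgClosed k] (P : Polynomial (HahnSeries ℚ k)) (hd : P.natDegree ≠ 0) :
    ∃ x, P.eval x = 0 := by
  obtain ⟨m, hm⟩ := exists_maximal_of_chains_bounded (exists_upper hd)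
    (fun hab hbc => improves_trans hd hab hbc)
  refine ⟨m, by_contra fun h => ?_⟩
  have hs := isSlope_slope hd h
  obtain ⟨z, hz, hlt⟩ := exists_step h hs
  rcases hm (z + m) (Or.inr ⟨h, by rwa [add_sub_cancel_right], hlt⟩) with h' | ⟨-, -, h'⟩
  · rw [h'] at hlt
    exact lt_irrefl _ hlt
  · exact lt_asymm hlt h'

end Vale.Agent.P217.AlgClosed

namespace Vale.Agent.P217

/-- Hahn series with rational exponents over an algebraically closed field are algebraically
closed. -/
instance hahnSeries_isAlgClosed {k : Type*} [Field k] [IsAlgClosed k] :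
    IsAlgClosed (HahnSeries ℚ k) :=
  IsAlgClosed.of_exists_root _ fun P _ hi =>
    AlgClosed.exists_root P hi.natDegree_pos.ne'

end Vale.Agent.P217
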